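import Vale.Agent.P275.H490.Defs

/-!
# Row SUM: the divisor sum
-/

namespace Vale.Agent.P275.H792

open scoped BigOperators Topology
open Filter Vale.Agent.P275.H341 Vale.Agent.P275.H490

theorem drop {f : ℕ → ℂ} {N N' : ℕ} {a b : ℂ} (h : T1 f N a b) (hN : N + 2 ≤ N') :
    T1 f N' 0 0 := by
  unfold T1 at *
  have hq : Tendsto (fun q : ℕ => ((q : ℂ))⁻¹) atTop (𝓝 0) :=
    tendsto_inv_atTop_nhds_zero_nat
  have h1 : Tendsto (fun q : ℕ => f q / (q : ℂ) ^ N) atTop (𝓝 a) := by
    have h2 := (h.mul hq).add_const a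
    simp only [mul_zero, zero_add] at h2
    refine h2.congr' ?_
    filter_upwards [eventually_gt_atTop 0] with q hq0
    have h3 : (q : ℂ) ≠ 0 := Nat.cast_ne_zero.2 hq0.ne'
    rw [mul_assoc, mul_inv_cancel₀ h3, mul_one, sub_add_cancel]
  have h3 : Tendsto (fun q : ℕ => ((q : ℂ)⁻¹) ^ (N' - N - 1)) atTop (𝓝 0) := by
    have h4 := hq.pow (N' - N - 1)
    rwa [zero_pow (by omega)] at h4
  have h4 := h1.mul h3
  rw [mul_zero] at h4
  refine h4.congr' ?_
  filter_upwards [eventually_gt_atTop 0] with q hq0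
  have hq1 : (q : ℂ) ≠ 0 := Nat.cast_ne_zero.2 hq0.ne'
  obtain ⟨j, rfl⟩ : ∃ j, N' = N + 1 + j := ⟨N' - N - 1, by omega⟩
  have h5 : N + 1 + j - N - 1 = j := by omega
  rw [h5, sub_zero, pow_add, pow_add, pow_one, inv_pow]
  field_simp

theorem rowSUM : RowSUM := by
  intro n m g f hn hmn hm hg hf
  have hn0 : (n : ℂ) ≠ 0 := Nat.cast_ne_zero.2 (by omega)
  have hn2 : 2 ≤ n := hm.trans (Nat.le_of_dvd (by omega) hmn)
  set N := (g - 1) * (n * (n / m + 1)) with hN
  set A : ℕ → ℂ := fun d => if d ∣ m then ((n / m : ℕ) : ℂ) else 0 with hA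
  set B : ℕ → ℂ := fun d => if d = 1 then -((n : ℂ) * (2 * g - 2)) else 0 with hB
  have key : ∀ d ∈ n.divisors, T1 (f d) N (A d) (B d) := by
    intro d hd
    have hdn : d ∣ n := Nat.dvd_of_mem_divisors hd
    have h5 := hf d hdn
    by_cases hdm : d ∣ m
    · have hl : Nat.lcm m d = m := Nat.lcm_eq_left hdm
      rw [hl] at h5
      simp only [hA, hB, if_pos hdm]
      exact h5
    · have hd1 : d ≠ 1 := fun h => hdm (h ▸ one_dvd m)
      have hl : Nat.lcm m d ∣ n := Nat.lcm_dvd hmn hdn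
      have h6 : (g - 1) * (n * (n / Nat.lcm m d + 1)) + 2 ≤ N := by
        obtain ⟨v, hv⟩ := Nat.dvd_lcm_left m d
        obtain ⟨u, hu⟩ := hl
        have hL0 : 0 < Nat.lcm m d := Nat.lcm_pos (by omega) (Nat.pos_of_dvd_of_pos hdn (by omega))
        have hu0 : u ≠ 0 := by rintro rfl; omega
        have hv0 : v ≠ 0 := by rintro rfl; omega
        have hv1 : v ≠ 1 := by
          rintro rfl
          apply hdm
          rw [mul_one] at hv
          rw [← hv]
          exact Nat.dvd_lcm_right m d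
        have e1 : n / Nat.lcm m d = u := by
          rw [hu]; exact Nat.mul_div_cancel_left u hL0
        have e2 : n / m = v * u := by
          rw [hu, hv, mul_assoc]; exact Nat.mul_div_cancel_left _ (by omega)
        rw [hN, e1, e2]
        obtain ⟨w, rfl⟩ : ∃ w, v = w + 2 := ⟨v - 2, by omega⟩
        obtain ⟨t, rfl⟩ : ∃ t, u = t + 1 := ⟨u - 1, by omega⟩
        obtain ⟨s, hs⟩ : ∃ s, g - 1 = s + 1 := ⟨g - 2, by omega⟩
        rw [hs]
        have h7 : t + 1 + 1 + 1 ≤ (w + 2) * (t + 1) + 1 := by nlinarith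
        calc (s + 1) * (n * (t + 1 + 1)) + 2 ≤ (s + 1) * (n * (t + 1 + 1 + 1)) := by nlinarith
          _ ≤ _ := by gcongr
      have h7 := drop h5 h6
      simp only [hA, hB, if_neg hdm, if_neg hd1]
      exact h7
  have lim : Tendsto (fun q : ℕ => (1 / (n : ℂ)) * ∑ d ∈ n.divisors,
      ((ArithmeticFunction.moebius d : ℤ) : ℂ) * ((f d q / (q : ℂ) ^ N - A d) * q)) atTop
      (𝓝 ((1 / (n : ℂ)) * ∑ d ∈ n.divisors, ((ArithmeticFunction.moebius d : ℤ) : ℂ) * B d)) :=
    (tendsto_finsetSum _ fun d hd => (key d hd).const_mul _).const_mul _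
  have e1 : (1 / (n : ℂ)) * ∑ d ∈ n.divisors, ((ArithmeticFunction.moebius d : ℤ) : ℂ) * B d
      = -(2 * g - 2) := by
    rw [Finset.sum_eq_single 1]
    · simp only [hB, if_true, ArithmeticFunction.moebius_apply_one, Int.cast_one, one_mul]
      field_simp
    · intro d _ hd
      simp [hB, hd]
    · intro h
      exact absurd (Nat.mem_divisors.2 ⟨one_dvd n, by omega⟩) h
  rw [e1] at lim
  have hmu : ∑ d ∈ m.divisors, (ArithmeticFunction.moebius d : ℤ) = 0 := by
    rw [← ArithmeticFunction.coe_mul_zeta_apply, ArithmeticFunction.moebius_mul_coe_zeta]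
    exact ArithmeticFunction.one_apply_ne (by omega)
  have e2 : ∑ d ∈ n.divisors, ((ArithmeticFunction.moebius d : ℤ) : ℂ) * A d = 0 := by
    have h1 : n.divisors.filter (fun d => d ∣ m) = m.divisors := by
      ext d
      simp only [Finset.mem_filter, Nat.mem_divisors]
      constructor
      · rintro ⟨_, h⟩
        exact ⟨h, by omega⟩
      · rintro ⟨h, _⟩
        exact ⟨⟨h.trans hmn, by omega⟩, h⟩
    simp only [hA, mul_ite, mul_zero]
    rw [← Finset.sum_filter, h1, ← Finset.sum_mul]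
    have h2 : ∑ d ∈ m.divisors, ((ArithmeticFunction.moebius d : ℤ) : ℂ) = 0 := by
      exact_mod_cast congrArg (fun z : ℤ => (z : ℂ)) hmu
    rw [h2, zero_mul]
  unfold T1
  refine lim.congr fun q => ?_
  have h3 : ∑ d ∈ n.divisors, ((ArithmeticFunction.moebius d : ℤ) : ℂ) *
      ((f d q / (q : ℂ) ^ N - A d) * q) =
      (∑ d ∈ n.divisors, ((ArithmeticFunction.moebius d : ℤ) : ℂ) * f d q) / (q : ℂ) ^ N * q -
      (∑ d ∈ n.divisors, ((ArithmeticFunction.moebius d : ℤ) : ℂ) * A d) * q := by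
    rw [Finset.sum_div, Finset.sum_mul, Finset.sum_mul, ← Finset.sum_sub_distrib]
    refine Finset.sum_congr rfl fun d _ => ?_
    ring
  rw [h3, e2]
  ring

end Vale.Agent.P275.H792

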